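import Vale.Agent.Lib.P154M.Forms

set_option linter.defProp false

/-!
Kernel checks: pointwise bounds in the chart.
-/

namespace Vale.Agent.Lib.P154M

open Vale.Agent.Lib.Common.Kron Vale.Agent.Lib.Common.Kron.PE

set_option maxRecDepth 100000 in
def hHG_0 : checkT (eHG chX1 chX2 chX3) (c 1) [61, 61, 1, 1] .leaf (root2.lowH 1) = true := by
  decide +kernel

set_option maxRecDepth 100000 in
def hHG_1 : checkT (eHG chX1 chX2 chX3) (c 1) [61, 61, 1, 1] .leaf ((root2.upH 1).lowH 1) = true := by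
  decide +kernel

set_option maxRecDepth 100000 in
def hHG_2 : checkT (eHG chX1 chX2 chX3) (c 1) [61, 61, 1, 1] (.node 0 .leaf .leaf) (((root2.upH 1).upH 1).lowH 1) = true := by
  decide +kernel

set_option maxRecDepth 100000 in
def hHG_3 : checkT (eHG chX1 chX2 chX3) (c 1) [61, 61, 1, 1] (.node 0 .leaf (.node 0 .leaf .leaf)) (((root2.upH 1).upH 1).upH 1) = true := by
  decide +kernel

set_option maxRecDepth 100000 in
def hHU0_0 : checkT (eHU0 chX1 chX2 chX3) regM [61, 61, 1, 1] .drop (root2.lowH 1) = true := by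
  decide +kernel

set_option maxRecDepth 100000 in
def hHU0_1 : checkT (eHU0 chX1 chX2 chX3) regM [61, 61, 1, 1] .drop ((root2.upH 1).lowH 1) = true := by
  decide +kernel

set_option maxRecDepth 100000 in
def hHU0_2 : checkT (eHU0 chX1 chX2 chX3) regM [61, 61, 1, 1] .drop (((root2.upH 1).upH 1).lowH 0) = true := by
  decide +kernel

set_option maxRecDepth 100000 in
def hHU0_3 : checkT (eHU0 chX1 chX2 chX3) regM [61, 61, 1, 1] .drop (((((root2.upH 1).upH 1).upH 0).lowH 0).lowH 1) = true := by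
  decide +kernel

set_option maxRecDepth 100000 in
def hHU0_4 : checkT (eHU0 chX1 chX2 chX3) regM [61, 61, 1, 1] (.node 1 .drop (.node 0 .drop (.node 0 (.node 0 (.node 1 .drop .leaf) (.node 1 .drop .leaf)) (.node 1 .drop .leaf)))) (((((root2.upH 1).upH 1).upH 0).lowH 0).upH 1) = true := by
  decide +kernel

set_option maxRecDepth 100000 in
def hHU0_5 : checkT (eHU0 chX1 chX2 chX3) regM [61, 61, 1, 1] .drop (((((root2.upH 1).upH 1).upH 0).upH 0).lowH 1) = true := by
  decide +kernel

set_option maxRecDepth 100000 in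
def hHU0_6 : checkT (eHU0 chX1 chX2 chX3) regM [61, 61, 1, 1] .drop ((((((((root2.upH 1).upH 1).upH 0).upH 0).upH 1).lowH 1).lowH 1).lowH 0) = true := by
  decide +kernel

set_option maxRecDepth 100000 in
def hHU0_7 : checkT (eHU0 chX1 chX2 chX3) regM [61, 61, 1, 1] .drop (((((((((root2.upH 1).upH 1).upH 0).upH 0).upH 1).lowH 1).lowH 1).upH 0).lowH 0) = true := by
  decide +kernel

set_option maxRecDepth 100000 in
def hHU0_8 : checkT (eHU0 chX1 chX2 chX3) regM [61, 61, 1, 1] .drop ((((((((((root2.upH 1).upH 1).upH 0).upH 0).upH 1).lowH 1).lowH 1).upH 0).upH 0).lowH 1) = true := by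
  decide +kernel

set_option maxRecDepth 100000 in
def hHU0_9 : checkT (eHU0 chX1 chX2 chX3) regM [61, 61, 1, 1] .drop (((((((((((root2.upH 1).upH 1).upH 0).upH 0).upH 1).lowH 1).lowH 1).upH 0).upH 0).upH 1).lowH 0) = true := by
  decide +kernel

set_option maxRecDepth 100000 in
def hHU0_10 : checkT (eHU0 chX1 chX2 chX3) regM [61, 61, 1, 1] .drop ((((((((((((root2.upH 1).upH 1).upH 0).upH 0).upH 1).lowH 1).lowH 1).upH 0).upH 0).upH 1).upH 0).lowH 0) = true := by
  decide +kernel

set_option maxRecDepth 100000 in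
def hHU0_11 : checkT (eHU0 chX1 chX2 chX3) regM [61, 61, 1, 1] .drop (((((((((((((root2.upH 1).upH 1).upH 0).upH 0).upH 1).lowH 1).lowH 1).upH 0).upH 0).upH 1).upH 0).upH 0).lowH 1) = true := by
  decide +kernel

set_option maxRecDepth 100000 in
def hHU0_12 : checkT (eHU0 chX1 chX2 chX3) regM [61, 61, 1, 1] (.node 0 .drop (.node 0 .drop (.node 1 .drop .leaf))) ((((((((((((((root2.upH 1).upH 1).upH 0).upH 0).upH 1).lowH 1).lowH 1).upH 0).upH 0).upH 1).upH 0).upH 0).upH 1).lowH 1) = true := by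
  decide +kernel

set_option maxRecDepth 100000 in
def hHU0_13 : checkT (eHU0 chX1 chX2 chX3) regM [61, 61, 1, 1] (.node 0 (.node 0 (.node 1 .drop (.node 1 .drop .leaf)) (.node 1 .drop .leaf)) .leaf) ((((((((((((((root2.upH 1).upH 1).upH 0).upH 0).upH 1).lowH 1).lowH 1).upH 0).upH 0).upH 1).upH 0).upH 0).upH 1).upH 1) = true := by
  decide +kernel

set_option maxRecDepth 100000 in
def hHU0_14 : checkT (eHU0 chX1 chX2 chX3) regM [61, 61, 1, 1] .drop ((((((((root2.upH 1).upH 1).upH 0).upH 0).upH 1).lowH 1).upH 1).lowH 0) = true := by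
  decide +kernel

set_option maxRecDepth 100000 in
def hHU0_15 : checkT (eHU0 chX1 chX2 chX3) regM [61, 61, 1, 1] .drop ((((((((((root2.upH 1).upH 1).upH 0).upH 0).upH 1).lowH 1).upH 1).upH 0).lowH 0).lowH 1) = true := by
  decide +kernel

set_option maxRecDepth 100000 in
def hHU0_16 : checkT (eHU0 chX1 chX2 chX3) regM [61, 61, 1, 1] .drop (((((((((((root2.upH 1).upH 1).upH 0).upH 0).upH 1).lowH 1).upH 1).upH 0).lowH 0).upH 1).lowH 0) = true := by
  decide +kernel

end Vale.Agent.Lib.P154M
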