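import Vale.Agent.Lib.P154M.Forms

set_option linter.defProp false

/-!
Kernel checks: pointwise bounds in the chart.
-/

namespace Vale.Agent.Lib.P154M

open Vale.Agent.Lib.Common.Kron Vale.Agent.Lib.Common.Kron.PE

set_option maxRecDepth 100000 in
def hHU0_31 : checkT (eHU0 chX1 chX2 chX3) regM [61, 61, 1, 1] (.node 1 (.node 0 .drop (.node 1 .drop (.node 0 .drop (.node 1 .drop .leaf)))) (.node 0 .drop .leaf)) ((((((((root2.upH 1).upH 1).upH 0).upH 0).upH 1).upH 1).lowH 1).lowH 0) = true := by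
  decide +kernel

set_option maxRecDepth 100000 in
def hHU0_32 : checkT (eHU0 chX1 chX2 chX3) regM [61, 61, 1, 1] (.node 1 (.node 0 .drop (.node 0 .drop .leaf)) (.node 0 (.node 1 .drop .leaf) .leaf)) ((((((((((((root2.upH 1).upH 1).upH 0).upH 0).upH 1).upH 1).lowH 1).upH 0).lowH 1).lowH 0).lowH 1).lowH 0) = true := by
  decide +kernel

set_option maxRecDepth 100000 in
def hHU0_33 : checkT (eHU0 chX1 chX2 chX3) regM [61, 61, 1, 1] .leaf ((((((((((((root2.upH 1).upH 1).upH 0).upH 0).upH 1).upH 1).lowH 1).upH 0).lowH 1).lowH 0).lowH 1).upH 0) = true := by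
  decide +kernel

set_option maxRecDepth 100000 in
def hHU0_34 : checkT (eHU0 chX1 chX2 chX3) regM [61, 61, 1, 1] .leaf (((((((((((root2.upH 1).upH 1).upH 0).upH 0).upH 1).upH 1).lowH 1).upH 0).lowH 1).lowH 0).upH 1) = true := by
  decide +kernel

set_option maxRecDepth 100000 in
def hHU0_35 : checkT (eHU0 chX1 chX2 chX3) regM [61, 61, 1, 1] .leaf ((((((((((root2.upH 1).upH 1).upH 0).upH 0).upH 1).upH 1).lowH 1).upH 0).lowH 1).upH 0) = true := by
  decide +kernel

set_option maxRecDepth 100000 in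
def hHU0_36 : checkT (eHU0 chX1 chX2 chX3) regM [61, 61, 1, 1] .leaf (((((((((root2.upH 1).upH 1).upH 0).upH 0).upH 1).upH 1).lowH 1).upH 0).upH 1) = true := by
  decide +kernel

set_option maxRecDepth 100000 in
def hHU0_37 : checkT (eHU0 chX1 chX2 chX3) regM [61, 61, 1, 1] .leaf (((((((root2.upH 1).upH 1).upH 0).upH 0).upH 1).upH 1).upH 1) = true := by
  decide +kernel

set_option maxRecDepth 100000 in
def hHU1_0 : checkT (eHU1 chX1 chX2 chX3) regM [61, 61, 1, 1] .drop (root2.lowH 1) = true := by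
  decide +kernel

set_option maxRecDepth 100000 in
def hHU1_1 : checkT (eHU1 chX1 chX2 chX3) regM [61, 61, 1, 1] .drop ((root2.upH 1).lowH 1) = true := by
  decide +kernel

set_option maxRecDepth 100000 in
def hHU1_2 : checkT (eHU1 chX1 chX2 chX3) regM [61, 61, 1, 1] .drop (((root2.upH 1).upH 1).lowH 1) = true := by
  decide +kernel

set_option maxRecDepth 100000 in
def hHU1_3 : checkT (eHU1 chX1 chX2 chX3) regM [61, 61, 1, 1] .drop ((((root2.upH 1).upH 1).upH 1).lowH 0) = true := by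
  decide +kernel

set_option maxRecDepth 100000 in
def hHU1_4 : checkT (eHU1 chX1 chX2 chX3) regM [61, 61, 1, 1] (.node 1 .drop (.node 0 .drop (.node 0 (.node 0 .leaf (.node 1 .drop .leaf)) (.node 1 .drop .leaf)))) (((((root2.upH 1).upH 1).upH 1).upH 0).lowH 0) = true := by
  decide +kernel

set_option maxRecDepth 100000 in
def hHU1_5 : checkT (eHU1 chX1 chX2 chX3) regM [61, 61, 1, 1] .drop ((((((((root2.upH 1).upH 1).upH 1).upH 0).upH 0).lowH 1).lowH 1).lowH 0) = true := by
  decide +kernel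

set_option maxRecDepth 100000 in
def hHU1_6 : checkT (eHU1 chX1 chX2 chX3) regM [61, 61, 1, 1] .drop (((((((((root2.upH 1).upH 1).upH 1).upH 0).upH 0).lowH 1).lowH 1).upH 0).lowH 0) = true := by
  decide +kernel

set_option maxRecDepth 100000 in
def hHU1_7 : checkT (eHU1 chX1 chX2 chX3) regM [61, 61, 1, 1] .drop ((((((((((root2.upH 1).upH 1).upH 1).upH 0).upH 0).lowH 1).lowH 1).upH 0).upH 0).lowH 1) = true := by
  decide +kernel

set_option maxRecDepth 100000 in
def hHU1_8 : checkT (eHU1 chX1 chX2 chX3) regM [61, 61, 1, 1] .drop (((((((((((root2.upH 1).upH 1).upH 1).upH 0).upH 0).lowH 1).lowH 1).upH 0).upH 0).upH 1).lowH 0) = true := by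
  decide +kernel

set_option maxRecDepth 100000 in
def hHU1_9 : checkT (eHU1 chX1 chX2 chX3) regM [61, 61, 1, 1] .drop ((((((((((((root2.upH 1).upH 1).upH 1).upH 0).upH 0).lowH 1).lowH 1).upH 0).upH 0).upH 1).upH 0).lowH 0) = true := by
  decide +kernel

set_option maxRecDepth 100000 in
def hHU1_10 : checkT (eHU1 chX1 chX2 chX3) regM [61, 61, 1, 1] .drop (((((((((((((root2.upH 1).upH 1).upH 1).upH 0).upH 0).lowH 1).lowH 1).upH 0).upH 0).upH 1).upH 0).upH 0).lowH 1) = true := by
  decide +kernel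

set_option maxRecDepth 100000 in
def hHU1_11 : checkT (eHU1 chX1 chX2 chX3) regM [61, 61, 1, 1] (.node 0 .drop (.node 0 .drop (.node 1 .drop .leaf))) ((((((((((((((root2.upH 1).upH 1).upH 1).upH 0).upH 0).lowH 1).lowH 1).upH 0).upH 0).upH 1).upH 0).upH 0).upH 1).lowH 1) = true := by
  decide +kernel

set_option maxRecDepth 100000 in
def hHU1_12 : checkT (eHU1 chX1 chX2 chX3) regM [61, 61, 1, 1] (.node 0 (.node 0 (.node 1 .drop .leaf) (.node 1 .drop .leaf)) .leaf) ((((((((((((((root2.upH 1).upH 1).upH 1).upH 0).upH 0).lowH 1).lowH 1).upH 0).upH 0).upH 1).upH 0).upH 0).upH 1).upH 1) = true := by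
  decide +kernel

end Vale.Agent.Lib.P154M
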