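import Vale.Agent.Lib.P154M.Forms

set_option linter.defProp false

/-!
Kernel checks: pointwise bounds in the chart.
-/

namespace Vale.Agent.Lib.P154M

open Vale.Agent.Lib.Common.Kron Vale.Agent.Lib.Common.Kron.PE

set_option maxRecDepth 100000 in
def hHU1_13 : checkT (eHU1 chX1 chX2 chX3) regM [61, 61, 1, 1] .drop ((((((((root2.upH 1).upH 1).upH 1).upH 0).upH 0).lowH 1).upH 1).lowH 0) = true := by
  decide +kernel

set_option maxRecDepth 100000 in
def hHU1_14 : checkT (eHU1 chX1 chX2 chX3) regM [61, 61, 1, 1] .drop ((((((((((root2.upH 1).upH 1).upH 1).upH 0).upH 0).lowH 1).upH 1).upH 0).lowH 0).lowH 1) = true := by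
  decide +kernel

set_option maxRecDepth 100000 in
def hHU1_15 : checkT (eHU1 chX1 chX2 chX3) regM [61, 61, 1, 1] (.node 0 .drop (.node 0 .drop (.node 1 .drop (.node 0 .drop .leaf)))) (((((((((((root2.upH 1).upH 1).upH 1).upH 0).upH 0).lowH 1).upH 1).upH 0).lowH 0).upH 1).lowH 1) = true := by
  decide +kernel

set_option maxRecDepth 100000 in
def hHU1_16 : checkT (eHU1 chX1 chX2 chX3) regM [61, 61, 1, 1] (.node 0 .drop (.node 0 (.node 1 .drop .leaf) .leaf)) (((((((((((root2.upH 1).upH 1).upH 1).upH 0).upH 0).lowH 1).upH 1).upH 0).lowH 0).upH 1).upH 1) = true := by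
  decide +kernel

set_option maxRecDepth 100000 in
def hHU1_17 : checkT (eHU1 chX1 chX2 chX3) regM [61, 61, 1, 1] (.node 1 .drop (.node 1 .drop (.node 0 .drop (.node 0 .drop (.node 1 .drop .leaf))))) ((((((((((((root2.upH 1).upH 1).upH 1).upH 0).upH 0).lowH 1).upH 1).upH 0).upH 0).lowH 1).lowH 0).lowH 0) = true := by
  decide +kernel

set_option maxRecDepth 100000 in
def hHU1_18 : checkT (eHU1 chX1 chX2 chX3) regM [61, 61, 1, 1] (.node 1 .drop (.node 1 (.node 0 (.node 0 .drop (.node 1 .drop .leaf)) .leaf) .leaf)) ((((((((((((root2.upH 1).upH 1).upH 1).upH 0).upH 0).lowH 1).upH 1).upH 0).upH 0).lowH 1).lowH 0).upH 0) = true := by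
  decide +kernel

set_option maxRecDepth 100000 in
def hHU1_19 : checkT (eHU1 chX1 chX2 chX3) regM [61, 61, 1, 1] (.node 0 .drop (.node 0 (.node 1 .drop .leaf) .leaf)) ((((((((((((((root2.upH 1).upH 1).upH 1).upH 0).upH 0).lowH 1).upH 1).upH 0).upH 0).lowH 1).upH 0).lowH 0).lowH 1).lowH 1) = true := by
  decide +kernel

set_option maxRecDepth 100000 in
def hHU1_20 : checkT (eHU1 chX1 chX2 chX3) regM [61, 61, 1, 1] (.node 0 (.node 0 (.node 1 .drop .leaf) .leaf) .leaf) ((((((((((((((root2.upH 1).upH 1).upH 1).upH 0).upH 0).lowH 1).upH 1).upH 0).upH 0).lowH 1).upH 0).lowH 0).lowH 1).upH 1) = true := by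
  decide +kernel

set_option maxRecDepth 100000 in
def hHU1_21 : checkT (eHU1 chX1 chX2 chX3) regM [61, 61, 1, 1] .leaf (((((((((((((root2.upH 1).upH 1).upH 1).upH 0).upH 0).lowH 1).upH 1).upH 0).upH 0).lowH 1).upH 0).lowH 0).upH 1) = true := by
  decide +kernel

set_option maxRecDepth 100000 in
def hHU1_22 : checkT (eHU1 chX1 chX2 chX3) regM [61, 61, 1, 1] .leaf ((((((((((((root2.upH 1).upH 1).upH 1).upH 0).upH 0).lowH 1).upH 1).upH 0).upH 0).lowH 1).upH 0).upH 0) = true := by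
  decide +kernel

set_option maxRecDepth 100000 in
def hHU1_23 : checkT (eHU1 chX1 chX2 chX3) regM [61, 61, 1, 1] (.node 1 (.node 0 (.node 0 .drop .leaf) .leaf) .leaf) (((((((((((((root2.upH 1).upH 1).upH 1).upH 0).upH 0).lowH 1).upH 1).upH 0).upH 0).upH 1).lowH 0).lowH 0).lowH 1) = true := by
  decide +kernel

set_option maxRecDepth 100000 in
def hHU1_24 : checkT (eHU1 chX1 chX2 chX3) regM [61, 61, 1, 1] .leaf (((((((((((((root2.upH 1).upH 1).upH 1).upH 0).upH 0).lowH 1).upH 1).upH 0).upH 0).upH 1).lowH 0).lowH 0).upH 1) = true := by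
  decide +kernel

set_option maxRecDepth 100000 in
def hHU1_25 : checkT (eHU1 chX1 chX2 chX3) regM [61, 61, 1, 1] .leaf ((((((((((((root2.upH 1).upH 1).upH 1).upH 0).upH 0).lowH 1).upH 1).upH 0).upH 0).upH 1).lowH 0).upH 0) = true := by
  decide +kernel

set_option maxRecDepth 100000 in
def hHU1_26 : checkT (eHU1 chX1 chX2 chX3) regM [61, 61, 1, 1] .leaf (((((((((((root2.upH 1).upH 1).upH 1).upH 0).upH 0).lowH 1).upH 1).upH 0).upH 0).upH 1).upH 0) = true := by
  decide +kernel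

set_option maxRecDepth 100000 in
def hHU1_27 : checkT (eHU1 chX1 chX2 chX3) regM [61, 61, 1, 1] (.node 1 (.node 1 .drop (.node 0 .drop (.node 0 .drop .leaf))) .leaf) ((((((((root2.upH 1).upH 1).upH 1).upH 0).upH 0).upH 1).lowH 1).lowH 0) = true := by
  decide +kernel

end Vale.Agent.Lib.P154M
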