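import Vale.Agent.Lib.P154M.Forms

set_option linter.defProp false

/-!
Kernel checks: pointwise bounds in the chart.
-/

namespace Vale.Agent.Lib.P154M

open Vale.Agent.Lib.Common.Kron Vale.Agent.Lib.Common.Kron.PE

set_option maxRecDepth 100000 in
def hHU1_28 : checkT (eHU1 chX1 chX2 chX3) regM [61, 61, 1, 1] (.node 0 (.node 1 (.node 0 .drop (.node 1 .drop .leaf)) .leaf) .leaf) (((((((((((root2.upH 1).upH 1).upH 1).upH 0).upH 0).upH 1).lowH 1).upH 0).lowH 1).lowH 0).lowH 1) = true := by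
  decide +kernel

set_option maxRecDepth 100000 in
def hHU1_29 : checkT (eHU1 chX1 chX2 chX3) regM [61, 61, 1, 1] .leaf (((((((((((root2.upH 1).upH 1).upH 1).upH 0).upH 0).upH 1).lowH 1).upH 0).lowH 1).lowH 0).upH 1) = true := by
  decide +kernel

set_option maxRecDepth 100000 in
def hHU1_30 : checkT (eHU1 chX1 chX2 chX3) regM [61, 61, 1, 1] .leaf ((((((((((root2.upH 1).upH 1).upH 1).upH 0).upH 0).upH 1).lowH 1).upH 0).lowH 1).upH 0) = true := by
  decide +kernel

set_option maxRecDepth 100000 in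
def hHU1_31 : checkT (eHU1 chX1 chX2 chX3) regM [61, 61, 1, 1] .leaf (((((((((root2.upH 1).upH 1).upH 1).upH 0).upH 0).upH 1).lowH 1).upH 0).upH 1) = true := by
  decide +kernel

set_option maxRecDepth 100000 in
def hHU1_32 : checkT (eHU1 chX1 chX2 chX3) regM [61, 61, 1, 1] .leaf (((((((root2.upH 1).upH 1).upH 1).upH 0).upH 0).upH 1).upH 1) = true := by
  decide +kernel

set_option maxRecDepth 100000 in
def hHU3_0 : checkT (eHU3 chX1 chX2 chX3) regM [61, 61, 1, 1] .drop (root2.lowH 1) = true := by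
  decide +kernel

set_option maxRecDepth 100000 in
def hHU3_1 : checkT (eHU3 chX1 chX2 chX3) regM [61, 61, 1, 1] .drop ((root2.upH 1).lowH 1) = true := by
  decide +kernel

set_option maxRecDepth 100000 in
def hHU3_2 : checkT (eHU3 chX1 chX2 chX3) regM [61, 61, 1, 1] .drop (((root2.upH 1).upH 1).lowH 1) = true := by
  decide +kernel

set_option maxRecDepth 100000 in
def hHU3_3 : checkT (eHU3 chX1 chX2 chX3) regM [61, 61, 1, 1] .drop ((((root2.upH 1).upH 1).upH 1).lowH 0) = true := by
  decide +kernel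

set_option maxRecDepth 100000 in
def hHU3_4 : checkT (eHU3 chX1 chX2 chX3) regM [61, 61, 1, 1] .drop ((((((root2.upH 1).upH 1).upH 1).upH 0).lowH 0).lowH 1) = true := by
  decide +kernel

set_option maxRecDepth 100000 in
def hHU3_5 : checkT (eHU3 chX1 chX2 chX3) regM [61, 61, 1, 1] .drop (((((((root2.upH 1).upH 1).upH 1).upH 0).lowH 0).upH 1).lowH 0) = true := by
  decide +kernel

set_option maxRecDepth 100000 in
def hHU3_6 : checkT (eHU3 chX1 chX2 chX3) regM [61, 61, 1, 1] (.node 0 (.node 1 .drop (.node 0 (.node 1 .drop (.node 0 .drop (.node 0 .drop .leaf))) .leaf)) .leaf) ((((((((root2.upH 1).upH 1).upH 1).upH 0).lowH 0).upH 1).upH 0).lowH 0) = true := by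
  decide +kernel

set_option maxRecDepth 100000 in
def hHU3_7 : checkT (eHU3 chX1 chX2 chX3) regM [61, 61, 1, 1] .leaf ((((((((root2.upH 1).upH 1).upH 1).upH 0).lowH 0).upH 1).upH 0).upH 0) = true := by
  decide +kernel

set_option maxRecDepth 100000 in
def hHU3_8 : checkT (eHU3 chX1 chX2 chX3) regM [61, 61, 1, 1] .leaf (((((root2.upH 1).upH 1).upH 1).upH 0).upH 0) = true := by
  decide +kernel

set_option maxRecDepth 100000 in
def hHE_0 : checkT (eHE chX1 chX2 chX3) regM [37, 37, 1, 1] (.node 1 .drop (.node 1 .drop (.node 0 .drop (.node 0 (.node 1 .drop (.node 0 .drop .leaf)) (.node 1 .drop .leaf))))) root2 = true := by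
  decide +kernel

end Vale.Agent.Lib.P154M
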